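import Mathlib

set_option autoImplicit false

namespace Crest.Agent.H1Egy

open Finset Complex

/-- `e(j/q)`. -/
noncomputable def ee (q j : ℕ) : ℂ := Complex.exp (2 * Real.pi * Complex.I * (j : ℂ) / (q : ℂ))

lemma ee_add (q j j' : ℕ) : ee q (j + j') = ee q j * ee q j' := by
  unfold ee
  rw [← Complex.exp_add]
  congr 1
  push_cast
  ring

lemma ee_zero (q : ℕ) : ee q 0 = 1 := by simp [ee]

lemma ee_sum {ι : Type*} (q : ℕ) (s : Finset ι) (f : ι → ℕ) :
    ee q (∑ i ∈ s, f i) = ∏ i ∈ s, ee q (f i) := by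
  classical
  induction s using Finset.induction_on with
  | empty => simp [ee_zero]
  | insert a s ha ih => rw [Finset.sum_insert ha, Finset.prod_insert ha, ee_add, ih]

lemma ee_cancel (g q j : ℕ) (hg : 0 < g) : ee (g * q) (g * j) = ee q j := by
  unfold ee
  congr 1
  have : (g : ℂ) ≠ 0 := by exact_mod_cast hg.ne'
  push_cast
  by_cases hq : (q : ℂ) = 0
  · simp [hq]
  · field_simp

lemma ee_eq (q j : ℕ) [NeZero q] : ee q j = ZMod.stdAddChar ((j : ℕ) : ZMod q) := by
  have := ZMod.stdAddChar_coe (N := q) (j : ℤ)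
  simp only [Int.cast_natCast] at this
  rw [this]
  rfl

lemma norm_ee (q j : ℕ) : ‖ee q j‖ = 1 := by
  unfold ee
  have : 2 * (Real.pi : ℂ) * Complex.I * (j : ℂ) / (q : ℂ) =
      ((2 * Real.pi * j / q : ℝ) : ℂ) * Complex.I := by
    push_cast; ring
  rw [this, Complex.norm_exp_ofReal_mul_I]

lemma sum_range_zmod (q : ℕ) [NeZero q] (F : ZMod q → ℂ) :
    ∑ h ∈ Finset.range q, F (h : ZMod q) = ∑ x : ZMod q, F x := by
  refine Finset.sum_bij' (fun h _ => (h : ZMod q)) (fun x _ => x.val) ?_ ?_ ?_ ?_ ?_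
  · intro a _; simp
  · intro a _; simpa using ZMod.val_lt a
  · intro a ha; exact ZMod.val_cast_of_lt (Finset.mem_range.1 ha)
  · intro a _; simp
  · intro a _; rfl

lemma sum_ee (q v : ℕ) (hq : 0 < q) :
    ∑ h ∈ Finset.range q, ee q (h * v) = if q ∣ v then (q : ℂ) else 0 := by
  have : NeZero q := ⟨hq.ne'⟩
  have h1 : ∀ h : ℕ, ee q (h * v) = ZMod.stdAddChar ((h : ZMod q) * (v : ZMod q)) := by
    intro h; rw [ee_eq]; push_cast; rfl
  simp only [h1]
  rw [sum_range_zmod q (fun x => ZMod.stdAddChar (x * (v : ZMod q))),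
    AddChar.sum_mulShift _ (ZMod.isPrimitive_stdAddChar q)]
  simp only [ZMod.natCast_eq_zero_iff, ZMod.card]
  split_ifs <;> simp

/-- number of coincidences modulo `q`. -/
def coll {ι : Type*} [Fintype ι] (q : ℕ) (X : ι → ℕ) : ℕ :=
  #{p : ι × ι | X p.1 ≡ X p.2 [MOD q]}

lemma coll_eq {ι : Type*} [Fintype ι] (q : ℕ) (X : ι → ℕ) :
    (coll q X : ℝ) = ∑ a, ∑ b, if ((X a : ℕ) : ZMod q) = (X b : ℕ) then (1 : ℝ) else 0 := by
  unfold coll
  rw [Finset.card_filter, Fintype.sum_prod_type]
  push_cast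
  simp only [ZMod.natCast_eq_natCast_iff]

lemma bilinear {ι : Type*} [Fintype ι] (q h : ℕ) (hq : 0 < q) (hh : Nat.Coprime h q)
    (X Y : ι → ℕ) :
    ‖∑ p : ι × ι, ee q (h * (X p.1 * Y p.2))‖ ^ 2 ≤ q * (coll q X * coll q Y : ℝ) := by
  classical
  have : NeZero q := ⟨hq.ne'⟩
  set ψ : AddChar (ZMod q) ℂ := ZMod.stdAddChar with hψ
  set T : ZMod q → ℂ := fun u => ∑ b, ψ (u * ((h : ZMod q) * (Y b : ZMod q))) with hT
  set α : ZMod q → ℝ := fun u => ∑ a, if ((X a : ℕ) : ZMod q) = u then (1 : ℝ) else 0 with hα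
  have h1 : ∑ p : ι × ι, ee q (h * (X p.1 * Y p.2)) = ∑ u : ZMod q, (α u : ℂ) * T u := by
    rw [Fintype.sum_prod_type]
    have : ∀ a, ∑ b, ee q (h * (X a * Y b)) = T (X a) := by
      intro a
      simp only [hT]
      refine Finset.sum_congr rfl fun b _ => ?_
      rw [ee_eq]
      congr 1
      push_cast
      ring
    simp only [this, hα]
    have e2 : ∀ u : ZMod q, (((∑ a, if ((X a : ℕ) : ZMod q) = u then (1 : ℝ) else 0 : ℝ)) : ℂ) * T u
        = ∑ a, if ((X a : ℕ) : ZMod q) = u then T u else 0 := by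
      intro u
      rw [Complex.ofReal_sum, Finset.sum_mul]
      refine Finset.sum_congr rfl fun a _ => ?_
      split_ifs <;> simp
    simp only [e2]
    symm
    rw [Finset.sum_comm]
    refine Finset.sum_congr rfl fun a _ => ?_
    simp
  have h2 : ∑ u, α u ^ 2 = coll q X := by
    rw [coll_eq]
    simp only [hα, sq, Finset.sum_mul_sum]
    rw [Finset.sum_comm]
    refine Finset.sum_congr rfl fun a _ => ?_
    rw [Finset.sum_comm]
    refine Finset.sum_congr rfl fun b _ => ?_
    rw [Finset.sum_eq_single (X a : ZMod q)]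
    · by_cases hab : ((X a : ℕ) : ZMod q) = (X b : ℕ)
      · simp [hab]
      · simp [hab, Ne.symm hab]
    · intro u _ hu
      rw [if_neg (Ne.symm hu)]
      simp
    · simp
  have hunit : IsUnit (h : ZMod q) := (ZMod.isUnit_iff_coprime h q).2 hh
  have h3 : ∑ u, ‖T u‖ ^ 2 = q * coll q Y := by
    have : ((∑ u, ‖T u‖ ^ 2 : ℝ) : ℂ) = ((q * coll q Y : ℝ) : ℂ) := by
      rw [coll_eq]
      push_cast
      have e1 : ∀ u, ((‖T u‖ : ℂ)) ^ 2 = ∑ b, ∑ b',
          ψ (u * ((h : ZMod q) * ((Y b : ZMod q) - (Y b' : ZMod q)))) := by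
        intro u
        rw [← Complex.mul_conj']
        simp only [hT, map_sum, Finset.sum_mul_sum]
        refine Finset.sum_congr rfl fun b _ => Finset.sum_congr rfl fun b' _ => ?_
        rw [← AddChar.map_neg_eq_conj, ← AddChar.map_add_eq_mul]
        congr 1
        ring
      simp only [e1]
      rw [Finset.sum_comm, Finset.mul_sum]
      refine Finset.sum_congr rfl fun b _ => ?_
      rw [Finset.sum_comm, Finset.mul_sum]
      refine Finset.sum_congr rfl fun b' _ => ?_
      rw [AddChar.sum_mulShift _ (ZMod.isPrimitive_stdAddChar q)]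
      simp only [hunit.mul_right_eq_zero, sub_eq_zero, ZMod.card]
      split_ifs <;> simp
    exact_mod_cast this
  rw [h1]
  have h4 : ‖∑ u : ZMod q, (α u : ℂ) * T u‖ ≤ ∑ u, α u * ‖T u‖ := by
    refine (norm_sum_le _ _).trans (le_of_eq ?_)
    refine Finset.sum_congr rfl fun u _ => ?_
    have : 0 ≤ α u := by
      simp only [hα]
      exact Finset.sum_nonneg fun a _ => by split_ifs <;> norm_num
    rw [norm_mul, Complex.norm_real, Real.norm_of_nonneg this]
  calc ‖∑ u : ZMod q, (α u : ℂ) * T u‖ ^ 2 ≤ (∑ u, α u * ‖T u‖) ^ 2 := by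
        gcongr
    _ ≤ (∑ u, α u ^ 2) * ∑ u, ‖T u‖ ^ 2 := Finset.sum_mul_sq_le_sq_mul_sq _ _ _
    _ = _ := by rw [h2, h3]; ring

lemma zsum (q h Z : ℕ) (hq : 2 ≤ q) (hh : Nat.Coprime h q) :
    ‖∑ z ∈ Finset.range Z, ee q (h * (z + 1))‖ ≤ q := by
  have hnd : ¬ q ∣ h := by
    intro hd
    have := Nat.Coprime.eq_one_of_dvd hh.symm hd
    omega
  induction Z using Nat.strong_induction_on with
  | _ Z ih =>
    by_cases hZ : Z ≤ q
    · refine (norm_sum_le _ _).trans ?_
      simp only [norm_ee, Finset.sum_const, Finset.card_range, nsmul_eq_mul, mul_one]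
      exact_mod_cast hZ
    · obtain ⟨Z', rfl⟩ : ∃ Z', Z = Z' + q := ⟨Z - q, by omega⟩
      rw [Finset.sum_range_add]
      have : ∑ x ∈ Finset.range q, ee q (h * (Z' + x + 1)) = 0 := by
        have e : ∀ x, ee q (h * (Z' + x + 1)) = ee q (h * (Z' + 1)) * ee q (x * h) := by
          intro x
          rw [← ee_add]; congr 1; ring
        simp only [e]
        rw [← Finset.mul_sum, sum_ee q h (by omega), if_neg hnd, mul_zero]
      rw [this, add_zero]
      exact ih Z' (by omega)

lemma exists_dvd {τ κ : Type*} [Fintype τ] [DecidableEq τ] [Fintype κ] (n : ℕ) (hn : 0 < n)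
    (f : τ → κ → ℕ)
    (h : ∑ h ∈ Finset.Ico 1 n, ∏ i, ‖∑ k, ee n (h * f i k)‖ <
      (Fintype.card κ : ℝ) ^ Fintype.card τ) :
    ∃ sel : τ → κ, n ∣ ∑ i, f i (sel i) := by
  by_contra hcon
  push Not at hcon
  have h1 : ∑ sel : τ → κ, ∑ h ∈ Finset.range n, ee n (h * ∑ i, f i (sel i)) = 0 := by
    refine Finset.sum_eq_zero fun sel _ => ?_
    rw [sum_ee n _ hn, if_neg (hcon sel)]
  rw [Finset.sum_comm] at h1
  have h2 : ∀ h : ℕ, ∑ sel : τ → κ, ee n (h * ∑ i, f i (sel i)) =
      ∏ i, ∑ k, ee n (h * f i k) := by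
    intro h
    rw [Finset.prod_univ_sum, Fintype.piFinset_univ]
    refine Finset.sum_congr rfl fun sel _ => ?_
    rw [Finset.mul_sum, ee_sum]
  simp only [h2] at h1
  rw [Finset.range_eq_Ico, Finset.sum_eq_sum_Ico_succ_bot hn] at h1
  simp only [zero_mul, ee_zero, Finset.sum_const, Finset.card_univ, nsmul_eq_mul, mul_one,
    Finset.prod_const, zero_add] at h1
  have h3 : (Fintype.card κ : ℂ) ^ Fintype.card τ =
      - ∑ h ∈ Finset.Ico 1 n, ∏ i, ∑ k, ee n (h * f i k) := by
    linear_combination h1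
  have h4 := congrArg norm h3
  rw [norm_neg, norm_pow, Complex.norm_natCast] at h4
  have h5 := norm_sum_le (Finset.Ico 1 n) (fun h => ∏ i, ∑ k, ee n (h * f i k))
  simp only [norm_prod] at h5
  linarith

/-- grouping frequencies by their reduced denominators. -/
lemma sum_by_denominator (n : ℕ) (G : ℕ → ℝ) (F : ℕ → ℝ) (D : Finset ℕ) (hF : ∀ q ∈ D, 0 ≤ F q)
    (hD : ∀ q, q ∣ n → 2 ≤ q → q ∈ D)
    (hG : ∀ g h q : ℕ, 0 < g → 2 ≤ q → Nat.Coprime h q → n = g * q → G (g * h) ≤ F q) :
    ∑ h ∈ Finset.Ico 1 n, G h ≤ ∑ q ∈ D, q * F q := by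
  classical
  have hmaps : ∀ h ∈ Finset.Ico 1 n, n / Nat.gcd h n ∈ D ∧ 2 ≤ n / Nat.gcd h n := by
    intro h hh
    rw [Finset.mem_Ico] at hh
    have hg : 0 < Nat.gcd h n := Nat.gcd_pos_of_pos_left _ (by omega)
    have hle : Nat.gcd h n ≤ h := Nat.gcd_le_left _ (by omega)
    obtain ⟨c, hc⟩ := Nat.gcd_dvd_right h n
    have hc' : n / Nat.gcd h n = c := by
      conv_lhs => rw [hc]
      rw [← hc]
      exact (Nat.div_eq_of_eq_mul_right hg hc)
    have h2 : 2 ≤ c := by
      by_contra hlt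
      have : c = 0 ∨ c = 1 := by omega
      rcases this with rfl | rfl <;> omega
    rw [hc']
    exact ⟨hD c (Dvd.intro_left _ hc.symm) h2, h2⟩
  rw [← Finset.sum_fiberwise_of_maps_to (g := fun h => n / Nat.gcd h n) (t := D)
    (fun h hh => (hmaps h hh).1)]
  refine Finset.sum_le_sum fun q hq => ?_
  have hb : ∀ h ∈ (Finset.Ico 1 n).filter (fun h => n / Nat.gcd h n = q), G h ≤ F q := by
    intro h hh
    rw [Finset.mem_filter] at hh
    obtain ⟨hh, rfl⟩ := hh
    have h2 := (hmaps h hh).2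
    rw [Finset.mem_Ico] at hh
    have hg : 0 < Nat.gcd h n := Nat.gcd_pos_of_pos_left _ (by omega)
    have := hG (Nat.gcd h n) (h / Nat.gcd h n) (n / Nat.gcd h n) hg h2
      (Nat.coprime_div_gcd_div_gcd hg) (Nat.mul_div_cancel' (Nat.gcd_dvd_right h n)).symm
    rwa [Nat.mul_div_cancel' (Nat.gcd_dvd_left h n)] at this
  have hcard : ((Finset.Ico 1 n).filter (fun h => n / Nat.gcd h n = q)).card ≤ q := by
    have : ((Finset.Ico 1 n).filter (fun h => n / Nat.gcd h n = q)).card ≤
        (Finset.range q).card := by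
      refine Finset.card_le_card_of_injOn (fun h => h / (n / q)) ?_ ?_
      · intro h hh
        simp only [Finset.coe_filter, Set.mem_ofPred_eq, Finset.mem_Ico] at hh
        obtain ⟨hh, hq'⟩ := hh
        have hg : 0 < Nat.gcd h n := Nat.gcd_pos_of_pos_left _ (by omega)
        have hn : n = Nat.gcd h n * q := by
          rw [← hq']; exact (Nat.mul_div_cancel' (Nat.gcd_dvd_right h n)).symm
        have hq0 : 0 < q := by
          rcases Nat.eq_zero_or_pos q with h0 | h0
          · rw [h0] at hn; omega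
          · exact h0
        have : n / q = Nat.gcd h n := by
          conv_lhs => rw [hn]
          exact Nat.mul_div_cancel _ hq0
        simp only [Finset.coe_range, Set.mem_Iio, this]
        rw [Nat.div_lt_iff_lt_mul hg]
        calc h < n := hh.2
          _ = q * Nat.gcd h n := by rw [mul_comm]; exact hn
      · have key : ∀ h ∈ ((Finset.Ico 1 n).filter (fun h => n / Nat.gcd h n = q)), n / q ∣ h := by
          intro h hh
          simp only [Finset.mem_filter, Finset.mem_Ico] at hh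
          obtain ⟨hh, hq'⟩ := hh
          have hn : n = Nat.gcd h n * q := by
            rw [← hq']; exact (Nat.mul_div_cancel' (Nat.gcd_dvd_right h n)).symm
          have hq0 : 0 < q := by
            rcases Nat.eq_zero_or_pos q with h0 | h0
            · rw [h0] at hn; omega
            · exact h0
          have : n / q = Nat.gcd h n := by
            conv_lhs => rw [hn]
            exact Nat.mul_div_cancel _ hq0
          rw [this]
          exact Nat.gcd_dvd_left _ _
        intro h hh h' hh' heq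
        have e1 := Nat.div_mul_cancel (key h hh)
        have e2 := Nat.div_mul_cancel (key h' hh')
        simp only at heq
        rw [← e1, ← e2, heq]
    simpa using this
  calc _ ≤ ((Finset.Ico 1 n).filter (fun h => n / Nat.gcd h n = q)).card • F q :=
        Finset.sum_le_card_nsmul _ _ _ hb
    _ ≤ q * F q := by
        rw [nsmul_eq_mul]
        have : (((Finset.Ico 1 n).filter (fun h => n / Nat.gcd h n = q)).card : ℝ) ≤ q := by
          exact_mod_cast hcard
        exact mul_le_mul_of_nonneg_right this (hF q hq)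

end Crest.Agent.H1Egy
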