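import Mathlib

set_option autoImplicit false

namespace Crest.Agent.H1Egy

open Finset

/-- `r` is a sum of at most `t` unit fractions (repetitions allowed). -/
def Rep (r : ℚ) (t : ℕ) : Prop :=
  ∃ s : Multiset ℕ, Multiset.card s ≤ t ∧ (∀ n ∈ s, 0 < n) ∧
    (s.map (fun n : ℕ => (1 : ℚ) / (n : ℚ))).sum = r

lemma Rep.zero (t : ℕ) : Rep 0 t := ⟨0, by simp, by simp, by simp⟩

lemma Rep.mono {r : ℚ} {t t' : ℕ} (h : Rep r t) (ht : t ≤ t') : Rep r t' := by
  obtain ⟨s, h1, h2, h3⟩ := h
  exact ⟨s, h1.trans ht, h2, h3⟩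

lemma Rep.add {r r' : ℚ} {t t' : ℕ} (h : Rep r t) (h' : Rep r' t') : Rep (r + r') (t + t') := by
  obtain ⟨s, h1, h2, h3⟩ := h
  obtain ⟨s', h1', h2', h3'⟩ := h'
  refine ⟨s + s', by simp; omega, ?_, by simp [← h3, ← h3']⟩
  intro n hn
  rcases Multiset.mem_add.1 hn with h | h
  · exact h2 n h
  · exact h2' n h

lemma Rep.unit {n : ℕ} (hn : 0 < n) : Rep (1 / (n : ℚ)) 1 :=
  ⟨{n}, by simp, by simpa using hn, by simp⟩

lemma Rep.sum {ι : Type*} (s : Finset ι) (f : ι → ℚ) (t : ℕ) (h : ∀ i ∈ s, Rep (f i) t) :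
    Rep (∑ i ∈ s, f i) (s.card * t) := by
  classical
  induction s using Finset.induction_on with
  | empty => simpa using Rep.zero 0
  | insert a s ha ih =>
    rw [Finset.sum_insert ha, Finset.card_insert_of_notMem ha]
    have := (h a (by simp)).add (ih (fun i hi => h i (by simp [hi])))
    exact this.mono (by ring_nf; omega)

/-- sums of denominators are bounded among representations with a fixed number of terms. -/
lemma bounded_sum (t : ℕ) : ∀ r : ℚ, ∃ B : ℕ, ∀ s : Multiset ℕ, Multiset.card s = t →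
    (∀ n ∈ s, 0 < n) → (s.map (fun n : ℕ => (1 : ℚ) / (n : ℚ))).sum = r → s.sum ≤ B := by
  induction t with
  | zero =>
    intro r
    refine ⟨0, fun s hs _ _ => ?_⟩
    rw [Multiset.card_eq_zero] at hs
    simp [hs]
  | succ t ih =>
    intro r
    choose B hB using ih
    refine ⟨(Finset.range (⌈((t + 1 : ℕ) : ℚ) / r⌉₊ + 1)).sup (fun n => n + B (r - 1 / (n : ℚ))),
      fun s hs hpos hsum => ?_⟩
    have hne : s ≠ 0 := by
      intro h; rw [h] at hs; simp at hs
    obtain ⟨n, hn, hmin⟩ : ∃ n ∈ s, ∀ m ∈ s, n ≤ m := by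
      have hne' : s.toFinset.Nonempty := by
        obtain ⟨x, hx⟩ := Multiset.exists_mem_of_ne_zero hne
        exact ⟨x, by simpa using hx⟩
      refine ⟨s.toFinset.min' hne', by simpa using s.toFinset.min'_mem hne', fun m hm => ?_⟩
      exact s.toFinset.min'_le m (by simpa using hm)
    have hnpos : (0 : ℚ) < n := by exact_mod_cast hpos n hn
    have hle : r ≤ ((t + 1 : ℕ) : ℚ) * (1 / (n : ℚ)) := by
      rw [← hsum, ← hs]
      have := Multiset.sum_le_card_nsmul (s.map (fun n : ℕ => (1 : ℚ) / (n : ℚ))) (1 / (n : ℚ))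
        (by
          intro x hx
          obtain ⟨m, hm, rfl⟩ := Multiset.mem_map.1 hx
          have : (n : ℚ) ≤ m := by exact_mod_cast hmin m hm
          exact one_div_le_one_div_of_le hnpos this)
      simpa using this
    have hrpos : 0 < r := by
      rw [← hsum]
      obtain ⟨s', rfl⟩ := Multiset.exists_cons_of_mem hn
      simp only [Multiset.map_cons, Multiset.sum_cons]
      have : 0 ≤ (s'.map (fun n : ℕ => (1 : ℚ) / (n : ℚ))).sum := by
        apply Multiset.sum_nonneg
        intro x hx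
        obtain ⟨m, _, rfl⟩ := Multiset.mem_map.1 hx
        positivity
      positivity
    have hnle : n ≤ ⌈((t + 1 : ℕ) : ℚ) / r⌉₊ := by
      have : (n : ℚ) ≤ ((t + 1 : ℕ) : ℚ) / r := by
        rw [le_div_iff₀ hrpos]
        have h2 := mul_le_mul_of_nonneg_left hle hnpos.le
        have h3 : (n : ℚ) * (((t + 1 : ℕ) : ℚ) * (1 / (n : ℚ))) = ((t + 1 : ℕ) : ℚ) := by
          field_simp
        linarith
      exact_mod_cast this.trans (Nat.le_ceil _)
    obtain ⟨s', rfl⟩ := Multiset.exists_cons_of_mem hn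
    have h1 : s'.sum ≤ B (r - 1 / (n : ℚ)) := by
      apply hB
      · simpa using hs
      · intro m hm; exact hpos m (Multiset.mem_cons_of_mem hm)
      · simp only [Multiset.map_cons, Multiset.sum_cons] at hsum
        linarith
    have h2 : n + B (r - 1 / (n : ℚ)) ≤
        (Finset.range (⌈((t + 1 : ℕ) : ℚ) / r⌉₊ + 1)).sup (fun n => n + B (r - 1 / (n : ℚ))) :=
      Finset.le_sup (f := fun n : ℕ => n + B (r - 1 / (n : ℚ)))
        (Finset.mem_range.2 (Nat.lt_succ_of_le hnle))
    simp only [Multiset.sum_cons]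
    omega

/-- Takenouchi's lemma: repetitions can be removed. -/
lemma Rep.distinct {r : ℚ} {t : ℕ} (h : Rep r t) (hr : r < 1) :
    ∃ S : Finset ℕ, (∀ n ∈ S, 2 ≤ n) ∧ S.card ≤ t ∧ ∑ n ∈ S, (1 : ℚ) / (n : ℚ) = r := by
  classical
  obtain ⟨s0, h1, h2, h3⟩ := h
  obtain ⟨B, hB⟩ := bounded_sum (Multiset.card s0) r
  have key : ∀ k : ℕ, ∀ s : Multiset ℕ, Multiset.card s = Multiset.card s0 → (∀ n ∈ s, 0 < n) →
      (s.map (fun n : ℕ => (1 : ℚ) / (n : ℚ))).sum = r → B - s.sum = k →
      ∃ s' : Multiset ℕ, Multiset.card s' = Multiset.card s0 ∧ (∀ n ∈ s', 0 < n) ∧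
        (s'.map (fun n : ℕ => (1 : ℚ) / (n : ℚ))).sum = r ∧ s'.Nodup := by
    intro k
    induction k using Nat.strong_induction_on with
    | _ k ih =>
      intro s hc hp hs hk
      by_cases hnd : s.Nodup
      · exact ⟨s, hc, hp, hs, hnd⟩
      · rw [Multiset.nodup_iff_ne_cons_cons] at hnd
        push Not at hnd
        obtain ⟨n, u, rfl⟩ := hnd
        have hn : 0 < n := hp n (by simp)
        have hu : 0 ≤ (u.map (fun n : ℕ => (1 : ℚ) / (n : ℚ))).sum := by
          apply Multiset.sum_nonneg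
          intro x hx
          obtain ⟨m, _, rfl⟩ := Multiset.mem_map.1 hx
          positivity
        simp only [Multiset.map_cons, Multiset.sum_cons] at hs
        have hn3 : 3 ≤ n := by
          by_contra hlt
          have : n = 1 ∨ n = 2 := by omega
          rcases this with rfl | rfl
          · norm_num at hs hu; linarith
          · norm_num at hs hu; linarith
        -- replacement
        obtain ⟨x, y, hx, hy, hxy, hsum⟩ : ∃ x y : ℕ, 0 < x ∧ 0 < y ∧
            (1 : ℚ) / x + 1 / y = 1 / n + 1 / n ∧ n + n < x + y := by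
          rcases Nat.even_or_odd' n with ⟨j, rfl | rfl⟩
          · refine ⟨j + 1, j * (j + 1), by omega, by
              have : 0 < j := by omega
              positivity, ?_, by nlinarith⟩
            have : (0 : ℚ) < j := by
              have : 0 < j := by omega
              exact_mod_cast this
            push_cast
            field_simp
            ring
          · refine ⟨j + 1, (2 * j + 1) * (j + 1), by omega, by positivity, ?_, by nlinarith⟩
            push_cast
            field_simp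
            ring
        have hc' : Multiset.card (x ::ₘ y ::ₘ u) = Multiset.card s0 := by
          rw [← hc]; simp
        have hp' : ∀ m ∈ (x ::ₘ y ::ₘ u), 0 < m := by
          intro m hm
          simp only [Multiset.mem_cons] at hm
          rcases hm with rfl | rfl | hm
          · exact hx
          · exact hy
          · exact hp m (by simp [hm])
        have hs' : ((x ::ₘ y ::ₘ u).map (fun n : ℕ => (1 : ℚ) / (n : ℚ))).sum = r := by
          simp only [Multiset.map_cons, Multiset.sum_cons]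
          linarith
        have hb := hB _ hc' hp' hs'
        simp only [Multiset.sum_cons] at hb hk
        exact ih (B - (x ::ₘ y ::ₘ u).sum) (by simp only [Multiset.sum_cons]; omega) _ hc' hp' hs'
          rfl
  obtain ⟨s, hc, hp, hs, hnd⟩ := key _ s0 rfl h2 h3 rfl
  refine ⟨⟨s, hnd⟩, ?_, ?_, ?_⟩
  · intro n hn
    have hn' : n ∈ s := hn
    have hpos := hp n hn'
    by_contra hlt
    have : n = 1 := by omega
    subst this
    obtain ⟨u, rfl⟩ := Multiset.exists_cons_of_mem hn'
    have hu : 0 ≤ (u.map (fun n : ℕ => (1 : ℚ) / (n : ℚ))).sum := by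
      apply Multiset.sum_nonneg
      intro x hx
      obtain ⟨m, _, rfl⟩ := Multiset.mem_map.1 hx
      positivity
    simp only [Multiset.map_cons, Multiset.sum_cons] at hs
    norm_num at hs
    norm_num at hu
    linarith
  · show Multiset.card s ≤ t
    omega
  · exact hs

/-- one step with a denominator that is a multiple of `M`. -/
lemma step (a B M : ℕ) (ha : 0 < a) (hB : 0 < B) (hM : 0 < M) :
    ∃ n a' : ℕ, 0 < n ∧ M ∣ n ∧ a' < a * M ∧ a * n = B + a' ∧
      (a : ℚ) / B = 1 / n + (a' : ℚ) / ((B * n : ℕ) : ℚ) := by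
  set c := (B + a * M - 1) / (a * M) with hc
  have haM : 0 < a * M := by positivity
  have h1 : a * M * c ≤ B + a * M - 1 := Nat.mul_div_le _ _
  have h2 : B + a * M - 1 < a * M * (c + 1) := by
    have := Nat.lt_mul_div_succ (B + a * M - 1) haM
    simpa [hc] using this
  have h3 : B ≤ a * M * c := by
    rw [mul_add, mul_one] at h2; omega
  have hcpos : 0 < c := by
    rcases Nat.eq_zero_or_pos c with h | h
    · rw [h] at h3; omega
    · exact h
  refine ⟨M * c, a * (M * c) - B, by positivity, Dvd.intro _ rfl, ?_, ?_, ?_⟩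
  · rw [← mul_assoc]; omega
  · rw [← mul_assoc]; omega
  · have h4 : B ≤ a * (M * c) := by rw [← mul_assoc]; exact h3
    rw [Nat.cast_sub h4]
    have : (0 : ℚ) < B := by exact_mod_cast hB
    have : (0 : ℚ) < M := by exact_mod_cast hM
    have : (0 : ℚ) < c := by exact_mod_cast hcpos
    push_cast
    field_simp
    ring

/-- greedy steps. -/
lemma greedy (T : ℕ) : ∀ (i a B : ℕ), 0 < a → 0 < B → B ≤ T ^ 2 → T * a ^ (2 ^ i) ≤ B ^ (2 ^ i) →
    ∃ a' B' : ℕ, a' ≤ a ∧ 0 < B' ∧ B' ≤ T ^ 2 ∧ (a' = 0 ∨ T ≤ B') ∧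
      Rep ((a : ℚ) / B - (a' : ℚ) / B') i := by
  intro i
  induction i with
  | zero =>
    intro a B ha hB hBT h
    refine ⟨a, B, le_rfl, hB, hBT, Or.inr ?_, by simpa using Rep.zero 0⟩
    simp at h
    nlinarith
  | succ i ih =>
    intro a B ha hB hBT h
    by_cases hTB : T ≤ B
    · exact ⟨a, B, le_rfl, hB, hBT, Or.inr hTB, by simpa using Rep.zero _⟩
    · obtain ⟨n, a', hn, -, ha', hab, heq⟩ := step a B 1 ha hB one_pos
      rw [mul_one] at ha'
      have hnB : n ≤ B := by
        by_contra hlt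
        have : a * (B + 1) ≤ a * n := Nat.mul_le_mul_left _ (by omega)
        nlinarith
      have hBn : B * n ≤ T ^ 2 := by nlinarith
      rcases Nat.eq_zero_or_pos a' with h0 | h0
      · refine ⟨0, 1, by omega, one_pos, by nlinarith, Or.inl rfl, ?_⟩
        rw [heq, h0]
        simpa using (Rep.unit hn).mono (by omega)
      · have hcond : T * a' ^ (2 ^ i) ≤ (B * n) ^ (2 ^ i) := by
          -- a' * B ≤ a^2 * n
          have h1 : a' * B ^ 2 ≤ a ^ 2 * (B * n) := by
            have : a' * B ≤ a * (a * n) := Nat.mul_le_mul ha'.le (by omega)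
            nlinarith
          have h2 : (a' * B ^ 2) ^ (2 ^ i) ≤ (a ^ 2 * (B * n)) ^ (2 ^ i) :=
            Nat.pow_le_pow_left h1 _
          rw [mul_pow, mul_pow, ← pow_mul, ← pow_mul, ← pow_succ'] at h2
          have hpos : 0 < a ^ (2 ^ (i + 1)) := by positivity
          have h3 : a ^ (2 ^ (i + 1)) * (T * a' ^ (2 ^ i)) ≤
              a ^ (2 ^ (i + 1)) * (B * n) ^ (2 ^ i) := by
            calc a ^ (2 ^ (i + 1)) * (T * a' ^ (2 ^ i))
                = a' ^ (2 ^ i) * (T * a ^ (2 ^ (i + 1))) := by ring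
              _ ≤ a' ^ (2 ^ i) * B ^ (2 ^ (i + 1)) := Nat.mul_le_mul_left _ h
              _ ≤ _ := h2
          exact Nat.le_of_mul_le_mul_left h3 hpos
        obtain ⟨a'', B'', h1, h2, h3, h4, h5⟩ := ih a' (B * n) h0 (by positivity) hBn hcond
        refine ⟨a'', B'', by omega, h2, h3, h4, ?_⟩
        have := (Rep.unit hn).add h5
        rw [heq]
        convert this using 1
        · ring
        · ring

/-- digits in base `2^s`. -/
lemma digits (Q s t : ℕ)
    (hF : ∀ n B : ℕ, n < 2 ^ s → 0 < B → Q ∣ B → Rep ((n : ℚ) / B) t) :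
    ∀ K u B : ℕ, u < 2 ^ (s * K) → 0 < B → Q * 2 ^ (s * K) ∣ B → Rep ((u : ℚ) / B) (K * t) := by
  intro K
  induction K with
  | zero =>
    intro u B hu _ _
    have : u = 0 := by simpa using hu
    subst this
    simpa using Rep.zero 0
  | succ K ih =>
    intro u B hu hB hd
    obtain ⟨c, rfl⟩ := hd
    have hc : 0 < c := Nat.pos_of_mul_pos_left hB
    have hQ : 0 < Q := by
      rcases Nat.eq_zero_or_pos Q with h | h
      · simp [h] at hB
      · exact h
    have h2s : 0 < 2 ^ s := by positivity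
    have h1 := hF (u % 2 ^ s) _ (Nat.mod_lt _ h2s) hB ⟨2 ^ (s * (K + 1)) * c, by ring⟩
    have h2 := ih (u / 2 ^ s) (Q * 2 ^ (s * K) * c)
      (by
        rw [Nat.div_lt_iff_lt_mul h2s, ← pow_add]
        simpa [mul_add] using hu)
      (by positivity) ⟨c, rfl⟩
    have := h1.add h2
    convert this using 1
    · have hu' : (u : ℚ) = ((u % 2 ^ s : ℕ) : ℚ) + (2 : ℚ) ^ s * ((u / 2 ^ s : ℕ) : ℚ) := by
        exact_mod_cast (Nat.mod_add_div u (2 ^ s)).symm
      have : (0 : ℚ) < Q := by exact_mod_cast hQ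
      have : (0 : ℚ) < c := by exact_mod_cast hc
      rw [hu']
      simp only [Nat.cast_mul, Nat.cast_pow, Nat.cast_ofNat, mul_add, mul_one, pow_add]
      field_simp
    · ring

/-- the main reduction. -/
lemma reduction (Q s t K i a b : ℕ) (hQ : 0 < Q)
    (hF : ∀ n B : ℕ, n < 2 ^ s → 0 < B → Q ∣ B → Rep ((n : ℚ) / B) t)
    (ha : 0 < a) (hab : a < b) (hK : (b * Q) ^ 2 ≤ 2 ^ (s * K)) (hi : b * Q ≤ 2 ^ (2 ^ i)) :
    Rep ((a : ℚ) / b) (i + 2 + 2 * K * t) := by
  have hb : 0 < b := by omega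
  obtain ⟨n, a1, hn, -, ha1, hab1, heq⟩ := step a b 1 ha hb one_pos
  rw [mul_one] at ha1
  have hnb : n ≤ b := by
    by_contra hlt
    have : a * (b + 1) ≤ a * n := Nat.mul_le_mul_left _ (by omega)
    nlinarith
  have hn2 : 2 ≤ n := by
    by_contra hlt
    have : n = 1 := by omega
    subst this
    omega
  rcases Nat.eq_zero_or_pos a1 with h0 | h0
  · rw [heq, h0]
    simpa using (Rep.unit hn).mono (by omega)
  have hbQ : b ≤ b * Q := Nat.le_mul_of_pos_right _ hQ
  obtain ⟨a2, B, h1, h2, h3, h4, h5⟩ := greedy (b * Q) i a1 (b * n) h0 (by positivity)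
    (by nlinarith) (by
      have : 2 * a1 ≤ b * n := by nlinarith
      calc b * Q * a1 ^ (2 ^ i) ≤ 2 ^ (2 ^ i) * a1 ^ (2 ^ i) := Nat.mul_le_mul_right _ hi
        _ = (2 * a1) ^ (2 ^ i) := by rw [mul_pow]
        _ ≤ _ := Nat.pow_le_pow_left this _)
  have hrest : Rep ((a2 : ℚ) / B) (1 + 2 * K * t) := by
    rcases Nat.eq_zero_or_pos a2 with h6 | h6
    · rw [h6]; simpa using Rep.zero _
    have hTB : b * Q ≤ B := by
      rcases h4 with h4 | h4
      · omega
      · exact h4
    obtain ⟨n', a3, hn', hd, ha3, -, heq'⟩ := step a2 B (Q * 2 ^ (s * K)) h6 h2 (by positivity)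
    have hu : a3 / B < 2 ^ (s * K) := by
      rw [Nat.div_lt_iff_lt_mul h2]
      calc a3 < a2 * (Q * 2 ^ (s * K)) := ha3
        _ ≤ b * (Q * 2 ^ (s * K)) := Nat.mul_le_mul_right _ (by omega)
        _ = 2 ^ (s * K) * (b * Q) := by ring
        _ ≤ _ := Nat.mul_le_mul_left _ hTB
    have hv : a3 % B < 2 ^ (s * K) := by
      have := Nat.mod_lt a3 h2
      omega
    have r1 := digits Q s t hF K (a3 / B) n' hu hn' hd
    have r2 := digits Q s t hF K (a3 % B) (B * n') hv (by positivity) (hd.mul_left B)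
    have := (Rep.unit hn').add (r1.add r2)
    rw [heq']
    convert this using 1
    · have hu' : (a3 : ℚ) = ((a3 % B : ℕ) : ℚ) + (B : ℚ) * ((a3 / B : ℕ) : ℚ) := by
        exact_mod_cast (Nat.mod_add_div a3 B).symm
      have : (0 : ℚ) < B := by exact_mod_cast h2
      have : (0 : ℚ) < n' := by exact_mod_cast hn'
      rw [hu']
      simp only [Nat.cast_mul]
      field_simp
      ring
    · ring
  have := (Rep.unit hn).add (h5.add hrest)
  rw [heq]
  convert this using 1
  · ring
  · ring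

/-- finishing: if `n` divides a sum of divisors of `Q`. -/
lemma rep_of_dvd_sum {ι : Type*} [Fintype ι] [Nonempty ι] (Q n B : ℕ) (d : ι → ℕ) (hB : 0 < B)
    (hQ : Q ∣ B) (hd : ∀ i, d i ∣ Q) (hn : n ∣ ∑ i, d i) :
    Rep ((n : ℚ) / B) (Fintype.card ι) := by
  obtain ⟨P, hP⟩ := hn
  have hdB : ∀ i, d i ∣ B := fun i => (hd i).trans hQ
  have hdpos : ∀ i, 0 < d i := fun i => Nat.pos_of_dvd_of_pos (hdB i) hB
  have hsum : 0 < ∑ i, d i := Finset.sum_pos (fun i _ => hdpos i) Finset.univ_nonempty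
  have hPpos : 0 < P := by
    rcases Nat.eq_zero_or_pos P with h | h
    · rw [hP, h] at hsum; simp at hsum
    · exact h
  have := Rep.sum (Finset.univ : Finset ι) (fun i => (1 : ℚ) / ((B / d i * P : ℕ) : ℚ)) 1
    (fun i _ => Rep.unit (Nat.mul_pos (Nat.div_pos (Nat.le_of_dvd hB (hdB i)) (hdpos i)) hPpos))
  rw [mul_one, Finset.card_univ] at this
  convert this using 1
  have hB' : (0 : ℚ) < B := by exact_mod_cast hB
  have hP' : (0 : ℚ) < P := by exact_mod_cast hPpos
  have h1 : ∀ i, (1 : ℚ) / ((B / d i * P : ℕ) : ℚ) = (d i : ℚ) / (B * P) := by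
    intro i
    obtain ⟨c, hc⟩ := hdB i
    have hdi : (0 : ℚ) < d i := by exact_mod_cast hdpos i
    have hc0 : 0 < c := by
      rcases Nat.eq_zero_or_pos c with h | h
      · rw [hc, h] at hB; simp at hB
      · exact h
    have hc' : (0 : ℚ) < c := by exact_mod_cast hc0
    have : B / d i = c := by rw [hc]; exact Nat.mul_div_cancel_left c (hdpos i)
    rw [this]
    have hBq : (B : ℚ) = d i * c := by exact_mod_cast hc
    rw [hBq]
    push_cast
    field_simp
  simp only [h1]
  rw [← Finset.sum_div]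
  have : ∑ i, (d i : ℚ) = n * P := by exact_mod_cast hP
  rw [this]
  field_simp

end Crest.Agent.H1Egy
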