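import Crest.Agent.H1Egy.Pool
import Crest.Agent.H1Egy.Rep

set_option autoImplicit false

namespace Crest.Agent.H1Egy

open Finset

/-- the terms: three small integers and eight products of two subset products. -/
def term {J : ℕ} (Z : ℕ) (ω : Fin 4 × Bool → Fin J → ℕ) :
    Fin 3 ⊕ (Fin 4 × Bool) → ((Fin J → Bool) × (Fin J → Bool)) × Fin Z → ℕ
  | Sum.inl _ => fun k => k.2.val + 1
  | Sum.inr b => fun k => sub (ω (b.1, false)) k.1.1 * sub (ω (b.1, true)) k.1.2

lemma term_dvd {J : ℕ} (Z : ℕ) (ω : Fin 4 × Bool → Fin J → ℕ) (i) (k) :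
    term Z ω i k ∣ Z.factorial * ∏ b, ∏ j, ω b j := by
  rcases i with i | b
  · exact Dvd.dvd.mul_right (Nat.dvd_factorial (Nat.succ_pos _) k.2.isLt) _
  · refine Dvd.dvd.mul_left ?_ _
    show sub (ω (b.1, false)) k.1.1 * sub (ω (b.1, true)) k.1.2 ∣ _
    refine (mul_dvd_mul (sub_dvd _ _) (sub_dvd _ _)).trans ?_
    rw [← Finset.prod_pair (f := fun b => ∏ j, ω b j) (a := (b.1, false)) (b := (b.1, true))
      (by simp)]
    exact Finset.prod_dvd_prod_of_subset _ _ _ (Finset.subset_univ _)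

lemma finish_coprime {J : ℕ} (Z Q0 N0 : ℕ) (ω : Fin 4 × Bool → Fin J → ℕ) (hZ : 0 < Z)
    (hQ1 : 1 ≤ Q0) (hQN : Q0 ≤ N0) (hQZ : 2 * Q0 ^ 5 ≤ Z ^ 3) (hΦ : Phi Q0 N0 ω < 1 / 2)
    (n : ℕ) (hn : 0 < n) (hnN : n ≤ N0) (hcop : ∀ b j, Nat.Coprime (ω b j) n) :
    ∃ sel : Fin 3 ⊕ (Fin 4 × Bool) → ((Fin J → Bool) × (Fin J → Bool)) × Fin Z,
      n ∣ ∑ i, term Z ω i (sel i) := by
  classical
  refine exists_dvd n hn (term Z ω) ?_
  have hcard : (Fintype.card (((Fin J → Bool) × (Fin J → Bool)) × Fin Z) : ℝ) = 4 ^ J * Z := by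
    simp [← mul_pow]
  have hc2 : (Fintype.card ((Fin J → Bool) × (Fin J → Bool)) : ℝ) = 4 ^ J := by
    simp [← mul_pow]
  have h11 : Fintype.card (Fin 3 ⊕ (Fin 4 × Bool)) = 11 := by simp
  rw [hcard, h11]
  have hZ' : (0 : ℝ) < Z := by exact_mod_cast hZ
  set C : ℝ := (4 ^ J * Z) ^ 11 with hC
  have hCpos : 0 < C := by positivity
  refine lt_of_le_of_lt (sum_by_denominator n _
    (fun q => C * (if q ≤ Q0 then ((q : ℝ) / Z) ^ 3 else q ^ 4 * ∏ b, cc q (ω b) / 4 ^ J))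
    (Finset.Ioc 1 N0) ?_ ?_ ?_) ?_
  · intro q _
    refine mul_nonneg hCpos.le ?_
    split_ifs
    · positivity
    · exact mul_nonneg (by positivity)
        (Finset.prod_nonneg fun b _ => div_nonneg (cc_nonneg _ _) (by positivity))
  · intro q hq h2
    have := Nat.le_of_dvd hn hq
    rw [Finset.mem_Ioc]
    omega
  · intro g h q hg hq hh hn'
    have e0 : ∀ i k, ee n (g * h * term Z ω i k) = ee q (h * term Z ω i k) := by
      intro i k
      rw [hn', mul_assoc, ee_cancel _ _ _ hg]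
    simp only [e0]
    rw [Fintype.prod_sum_type]
    have eL : ∀ i : Fin 3, ‖∑ k, ee q (h * term Z ω (Sum.inl i) k)‖ =
        4 ^ J * ‖∑ z ∈ Finset.range Z, ee q (h * (z + 1))‖ := by
      intro i
      rw [Fintype.sum_prod_type]
      simp only [term]
      rw [Finset.sum_const, Finset.card_univ, nsmul_eq_mul, norm_mul, Complex.norm_natCast, hc2,
        Fin.sum_univ_eq_sum_range (fun z => ee q (h * (z + 1)))]
    have eR : ∀ b : Fin 4 × Bool, ‖∑ k, ee q (h * term Z ω (Sum.inr b) k)‖ =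
        Z * ‖∑ p : (Fin J → Bool) × (Fin J → Bool),
          ee q (h * (sub (ω (b.1, false)) p.1 * sub (ω (b.1, true)) p.2))‖ := by
      intro b
      rw [Fintype.sum_prod_type_right]
      simp only [term]
      rw [Finset.sum_const, Finset.card_univ, nsmul_eq_mul, norm_mul, Complex.norm_natCast,
        Fintype.card_fin]
    simp only [eL, eR]
    rw [Finset.prod_const, Finset.card_univ, Fintype.card_fin]
    split_ifs with hqQ
    · have a1 := zsum q h Z hq hh
      have a2 : ∀ b : Fin 4 × Bool, (Z : ℝ) * ‖∑ p : (Fin J → Bool) × (Fin J → Bool),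
          ee q (h * (sub (ω (b.1, false)) p.1 * sub (ω (b.1, true)) p.2))‖ ≤ Z * 4 ^ J := by
        intro b
        gcongr
        refine (norm_sum_le _ _).trans ?_
        simp only [norm_ee, Finset.sum_const, Finset.card_univ, nsmul_eq_mul, mul_one, hc2]
        exact le_rfl
      have a3 := Finset.prod_le_prod (s := Finset.univ) (fun b _ => by positivity)
        (fun b _ => a2 b)
      rw [Finset.prod_const, Finset.card_univ] at a3
      have h8 : Fintype.card (Fin 4 × Bool) = 8 := by simp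
      rw [h8] at a3
      calc _ ≤ (4 ^ J * (q : ℝ)) ^ 3 * (Z * 4 ^ J) ^ 8 := by
            gcongr
        _ = _ := by rw [hC]; field_simp
    · have a1 : ‖∑ z ∈ Finset.range Z, ee q (h * (z + 1))‖ ≤ Z := by
        refine (norm_sum_le _ _).trans ?_
        simp [norm_ee]
      have hqn : q ∣ n := Dvd.intro_left _ hn'.symm
      have hcc : ∀ b, cc q (ω b) = coll q (sub (ω b)) := by
        intro b
        unfold cc
        rw [if_pos fun j => (hcop b j).coprime_dvd_right hqn]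
      have a2 : ∏ b : Fin 4 × Bool, ((Z : ℝ) * ‖∑ p : (Fin J → Bool) × (Fin J → Bool),
          ee q (h * (sub (ω (b.1, false)) p.1 * sub (ω (b.1, true)) p.2))‖) ≤
          (Z * 4 ^ J) ^ 8 * (q ^ 4 * ∏ b, cc q (ω b) / 4 ^ J) := by
        rw [Fintype.prod_prod_type, Fintype.prod_prod_type]
        have : ((Z : ℝ) * 4 ^ J) ^ 8 * (q ^ 4 * ∏ x : Fin 4, ∏ y : Bool, cc q (ω (x, y)) / 4 ^ J)
            = ∏ x : Fin 4, (((Z : ℝ) * 4 ^ J) ^ 2 * q * ∏ y : Bool, cc q (ω (x, y)) / 4 ^ J) := by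
          rw [Finset.prod_mul_distrib, Finset.prod_const, Finset.card_univ, Fintype.card_fin]
          ring
        rw [this]
        refine Finset.prod_le_prod (fun x _ => by positivity) fun x _ => ?_
        dsimp only
        rw [Finset.prod_const, Finset.card_univ, Fintype.card_bool, Fintype.prod_bool, hcc, hcc,
          mul_pow]
        have := bilinear q h (by omega) hh (sub (ω (x, false))) (sub (ω (x, true)))
        calc _ ≤ (Z : ℝ) ^ 2 * (q * (coll q (sub (ω (x, false))) * coll q (sub (ω (x, true))))) := by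
              gcongr
          _ = _ := by field_simp
      have hnn : 0 ≤ (q : ℝ) ^ 4 * ∏ b, cc q (ω b) / 4 ^ J := mul_nonneg (by positivity)
        (Finset.prod_nonneg fun b _ => div_nonneg (cc_nonneg _ _) (by positivity))
      calc _ ≤ (4 ^ J * (Z : ℝ)) ^ 3 * ((Z * 4 ^ J) ^ 8 * (q ^ 4 * ∏ b, cc q (ω b) / 4 ^ J)) := by
            gcongr
        _ = _ := by rw [hC]; ring
  · rw [← Finset.sum_Ioc_consecutive _ hQ1 hQN]
    have b1 : ∑ q ∈ Finset.Ioc 1 Q0, (q : ℝ) * (C * (if q ≤ Q0 then ((q : ℝ) / Z) ^ 3 else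
        q ^ 4 * ∏ b, cc q (ω b) / 4 ^ J)) ≤ C * (1 / 2) := by
      have : ∀ q ∈ Finset.Ioc 1 Q0, (q : ℝ) * (C * (if q ≤ Q0 then ((q : ℝ) / Z) ^ 3 else
          q ^ 4 * ∏ b, cc q (ω b) / 4 ^ J)) ≤ Q0 * (C * ((Q0 : ℝ) / Z) ^ 3) := by
        intro q hq
        have hq' := (Finset.mem_Ioc.1 hq).2
        rw [if_pos hq']
        have : (q : ℝ) ≤ Q0 := by exact_mod_cast hq'
        gcongr
      refine (Finset.sum_le_card_nsmul _ _ _ this).trans ?_
      rw [nsmul_eq_mul, Nat.card_Ioc]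
      have h1 : ((Q0 - 1 : ℕ) : ℝ) ≤ Q0 := by exact_mod_cast Nat.sub_le _ _
      have h2 : (2 * Q0 ^ 5 : ℝ) ≤ Z ^ 3 := by exact_mod_cast hQZ
      calc _ ≤ (Q0 : ℝ) * (Q0 * (C * ((Q0 : ℝ) / Z) ^ 3)) := by gcongr
        _ = C * ((2 * Q0 ^ 5) / (2 * Z ^ 3)) := by field_simp
        _ ≤ C * (Z ^ 3 / (2 * Z ^ 3)) := by gcongr
        _ = _ := by field_simp
    have b2 : ∑ q ∈ Finset.Ioc Q0 N0, (q : ℝ) * (C * (if q ≤ Q0 then ((q : ℝ) / Z) ^ 3 else
        q ^ 4 * ∏ b, cc q (ω b) / 4 ^ J)) = C * Phi Q0 N0 ω := by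
      unfold Phi
      rw [Finset.mul_sum]
      refine Finset.sum_congr rfl fun q hq => ?_
      have hq' := (Finset.mem_Ioc.1 hq).1
      rw [if_neg (by omega)]
      ring
    rw [b2]
    have := mul_lt_mul_of_pos_left hΦ hCpos
    linarith

lemma finish {J : ℕ} (Z Q0 N0 : ℕ) (ω : Fin 4 × Bool → Fin J → ℕ) (hZ : 0 < Z)
    (hQ1 : 1 ≤ Q0) (hQN : Q0 ≤ N0) (hQZ : 2 * Q0 ^ 5 ≤ Z ^ 3) (hΦ : Phi Q0 N0 ω < 1 / 2)
    (hω : ∀ b j, (ω b j).Prime ∧ 8 * J + 1 < ω b j)
    (n B : ℕ) (hnN : n ≤ N0) (hB : 0 < B) (hd : Z.factorial * ∏ b, ∏ j, ω b j ∣ B) :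
    Rep ((n : ℚ) / B) 22 := by
  classical
  have key : ∀ n : ℕ, 0 < n → n ≤ N0 → (∀ b j, ¬ ω b j ∣ n) → Rep ((n : ℚ) / B) 11 := by
    intro n hn hnN hc
    obtain ⟨sel, hsel⟩ := finish_coprime Z Q0 N0 ω hZ hQ1 hQN hQZ hΦ n hn hnN
      (fun b j => (Nat.Prime.coprime_iff_not_dvd (hω b j).1).2 (hc b j))
    have := rep_of_dvd_sum _ n B (fun i => term Z ω i (sel i)) hB hd
      (fun i => term_dvd Z ω i _) hsel
    simpa using this
  have small : ∀ n : ℕ, 0 < n → n ≤ 8 * J + 1 → ∀ b j, ¬ ω b j ∣ n := by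
    intro n hn h b j hd
    have := Nat.le_of_dvd hn hd
    have := (hω b j).2
    omega
  rcases Nat.eq_zero_or_pos n with rfl | hn
  · simpa using Rep.zero 22
  by_cases hs : n ≤ 8 * J + 1
  · exact (key n hn hnN (small n hn hs)).mono (by norm_num)
  obtain ⟨n', hn', hgood⟩ : ∃ n' ∈ Finset.Icc 1 (8 * J + 1), ∀ b j, ¬ ω b j ∣ n - n' := by
    by_contra hcon
    push Not at hcon
    choose! f g hfg using hcon
    have : (Finset.Icc 1 (8 * J + 1)).card ≤
        (Finset.univ : Finset ((Fin 4 × Bool) × Fin J)).card := by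
      refine Finset.card_le_card_of_injOn (fun x => if hx : x ∈ Finset.Icc 1 (8 * J + 1) then
        (f x, g x hx) else (f 1, g 1 (by simp))) (fun _ _ => by simp) ?_
      intro x hx x' hx' heq
      have hx1 : x ∈ Finset.Icc 1 (8 * J + 1) := hx
      have hx1' : x' ∈ Finset.Icc 1 (8 * J + 1) := hx'
      simp only [dif_pos hx1, dif_pos hx1', Prod.mk.injEq] at heq
      have d1 := hfg x hx1
      have d2 := hfg x' hx1'
      rw [← heq.1, ← heq.2] at d2
      have hp := (hω (f x) (g x hx1)).2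
      rw [Finset.mem_Icc] at hx1 hx1'
      rcases lt_trichotomy x x' with h | h | h
      · have d3 := Nat.dvd_sub d1 d2
        have := Nat.le_of_dvd (by omega) d3
        omega
      · exact h
      · have d3 := Nat.dvd_sub d2 d1
        have := Nat.le_of_dvd (by omega) d3
        omega
    simp at this
  rw [Finset.mem_Icc] at hn'
  have r1 := key n' (by omega) (by omega) (small n' (by omega) hn'.2)
  have r2 := key (n - n') (by omega) (by omega) hgood
  have := r1.add r2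
  convert this using 1
  rw [Nat.cast_sub (by omega)]
  ring

end Crest.Agent.H1Egy
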