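import Crest.Agent.H1Egy.Finish

set_option autoImplicit false

namespace Crest.Agent.H1Egy

open Finset

lemma many_primes (m : ℕ) (hm : 2 ^ 20 ≤ m) :
    m ^ 272 + m * m ^ 32 ≤ m * Nat.primeCounting (m ^ 272) := by
  have h := Chebyshev.pi_ge (m ^ 272)
  have hm' : (2 : ℝ) ^ 20 ≤ m := by exact_mod_cast hm
  have hm1 : (1 : ℝ) < m := by linarith [show (1 : ℝ) < 2 ^ 20 by norm_num]
  have hm0 : (0 : ℝ) < m := by linarith
  have hlog : 0 < Real.log m := Real.log_pos hm1
  have hy : ((m ^ 272 : ℕ) : ℝ) = (m : ℝ) ^ 272 := by push_cast; rfl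
  rw [hy, Real.log_pow, div_le_iff₀ (by positivity)] at h
  set y : ℝ := (m : ℝ) ^ 272 with hydef
  have hy1 : (m : ℝ) ≤ y := by
    rw [hydef]; exact le_self_pow₀ hm1.le (by norm_num)
  -- log (y+1) ≤ y/8
  have h1 : Real.log (y + 1) ≤ y / 8 := by
    have a1 : Real.log ((y + 1) / 16) ≤ (y + 1) / 16 - 1 := Real.log_le_sub_one_of_pos (by positivity)
    rw [Real.log_div (by positivity) (by norm_num)] at a1
    have a2 : Real.log 16 ≤ 16 - 1 := Real.log_le_sub_one_of_pos (by norm_num)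
    have : (2 : ℝ) ^ 20 = 1048576 := by norm_num
    linarith
  have h2 : (1 / 2 : ℝ) < Real.log 2 := by
    have := Real.log_two_gt_d9
    linarith
  -- log m ≤ m / 4096 + log 4096 ≤ m / 2048
  have h3 : Real.log m ≤ m / 2048 := by
    have a1 : Real.log (m / 4096) ≤ m / 4096 - 1 := Real.log_le_sub_one_of_pos (by positivity)
    rw [Real.log_div (by positivity) (by norm_num)] at a1
    have a2 : Real.log 4096 ≤ 12 := by
      have : (4096 : ℝ) = 2 ^ 12 := by norm_num
      rw [this, Real.log_pow]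
      have := Real.log_two_lt_d9
      push_cast
      linarith
    have : (2 : ℝ) ^ 20 = 1048576 := by norm_num
    linarith
  have hπ : (0 : ℝ) ≤ (Nat.primeCounting (m ^ 272) : ℝ) := by positivity
  have h4 : 3 / 8 * y ≤ (Nat.primeCounting (m ^ 272) : ℝ) * (272 * (m / 2048)) := by
    have : (Nat.primeCounting (m ^ 272) : ℝ) * ((272 : ℕ) * Real.log m) ≤
        (Nat.primeCounting (m ^ 272) : ℝ) * (272 * (m / 2048)) := by
      push_cast
      gcongr
    have hy0 : 0 ≤ y := by positivity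
    have h7 : y * (1 / 2) ≤ y * Real.log 2 := mul_le_mul_of_nonneg_left h2.le hy0
    have h8 := h.trans this
    linarith
  have h5 : (m : ℝ) * m ^ 32 ≤ y := by
    rw [hydef, ← pow_succ']
    exact pow_le_pow_right₀ hm1.le (by norm_num)
  have h6 : y + m * m ^ 32 ≤ m * (Nat.primeCounting (m ^ 272) : ℝ) := by
    have hy0 : 0 ≤ y := by positivity
    nlinarith
  rw [hydef] at h6
  exact_mod_cast h6

lemma pool (m : ℕ) (hm : 2 ^ 20 ≤ m) :
    ∃ Q : ℕ, 0 < Q ∧ Q ≤ m ^ (23952 * m ^ 16) ∧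
      ∀ n B : ℕ, n < 2 ^ (m ^ 16) → 0 < B → Q ∣ B → Rep ((n : ℚ) / B) 22 := by
  classical
  set s := m ^ 16 with hs
  set y := m ^ 272 with hy
  have hm2 : 2 ≤ m := le_trans (by norm_num) hm
  have hms : m ≤ s := by rw [hs]; exact Nat.le_self_pow (by norm_num) _
  set P := (Nat.primesLE y).filter (fun p => s ^ 2 < p) with hP
  have hPc : y ≤ m * P.card := by
    have h1 := many_primes m hm
    have h2 : (Nat.primesLE y).card ≤ P.card + s ^ 2 := by
      rw [← Finset.card_filter_add_card_filter_not (s := Nat.primesLE y) (fun p => s ^ 2 < p)]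
      refine Nat.add_le_add_left ?_ _
      have : ((Nat.primesLE y).filter (fun p => ¬ s ^ 2 < p)) ⊆ Finset.Ioc 0 (s ^ 2) := by
        intro p hp
        rw [Finset.mem_filter, Nat.mem_primesLE] at hp
        rw [Finset.mem_Ioc]
        exact ⟨hp.1.2.pos, by omega⟩
      simpa using Finset.card_le_card this
    rw [Nat.primesLE_card_eq_primeCounting] at h2
    have h3 : s ^ 2 = m ^ 32 := by rw [hs, ← pow_mul]
    rw [h3] at h2
    have h4 := Nat.mul_le_mul_left m h2
    rw [← hy] at h1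
    rw [mul_add] at h4
    omega
  have hPp : ∀ p ∈ P, p.Prime ∧ p ≤ y := by
    intro p hp
    rw [hP, Finset.mem_filter, Nat.mem_primesLE] at hp
    exact ⟨hp.1.2, hp.1.1⟩
  have hy2 : 2 ≤ y := by
    rw [hy]; exact hm2.trans (Nat.le_self_pow (by norm_num) _)
  have hne : P.Nonempty := by
    rw [← Finset.card_pos]
    rcases Nat.eq_zero_or_pos P.card with h | h
    · rw [h] at hPc; omega
    · exact h
  have hm8 : m ≤ m ^ 8 := Nat.le_self_pow (by norm_num) _
  obtain ⟨ω, hω, hΦ⟩ := exists_pool (J := 11 * s) P hne (m ^ 8) (2 ^ s)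
    (lt_of_lt_of_le (by norm_num) (hm.trans hm8)) (by
      intro q hq
      rw [Finset.mem_Ioc] at hq
      have hq1 : 1 < q := by omega
      set k := Nat.clog y q with hk
      have hk1 : 0 < k := Nat.clog_pos (by omega) hq1
      have hqk : q ≤ y ^ k := Nat.le_pow_clog (by omega) q
      have hqk' : y ^ (k - 1) < q := Nat.pow_pred_clog_lt_self (by omega) hq1
      have hks : k ≤ s := by
        have h1 : 2 ^ (k - 1) ≤ y ^ (k - 1) := Nat.pow_le_pow_left hy2 _
        have h2 : 2 ^ (k - 1) < 2 ^ s := by omega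
        have := (Nat.pow_lt_pow_iff_right (by norm_num : 1 < 2)).1 h2
        omega
      refine ⟨(m * k) ^ k, ?_, sum_cc' P y q k m hPp (by omega) hqk hPc (by omega)
        (Nat.one_le_pow _ _ (by positivity)) ?_⟩
      · by_cases h1 : k = 1
        · rw [h1]; simpa using hq.1.le
        · have h2 : 2 ≤ k := by omega
          calc ((m * k) ^ k) ^ 8 ≤ ((m * s) ^ k) ^ 8 := by gcongr
            _ = m ^ (136 * k) := by rw [hs, ← pow_succ', ← pow_mul, ← pow_mul]; congr 1; ring
            _ ≤ m ^ (272 * (k - 1)) := Nat.pow_le_pow_right (by omega) (by omega)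
            _ = y ^ (k - 1) := by rw [hy, ← pow_mul]
            _ ≤ q := hqk'.le
      · have h1 : (q : ℝ) ≤ 2 ^ s := by exact_mod_cast hq.2
        have h2 : (2 : ℝ) ^ k ≤ 2 ^ s := pow_le_pow_right₀ (by norm_num) hks
        have h3 : (7 / 8 : ℝ) ^ (11 * s) ≤ (1 / 4) ^ s := by
          rw [pow_mul]
          exact pow_le_pow_left₀ (by positivity) (by norm_num) _
        calc (q : ℝ) * (2 ^ k * (7 / 8) ^ (11 * s)) ≤ 2 ^ s * (2 ^ s * (1 / 4) ^ s) := by gcongr
          _ = 1 := by rw [← mul_pow, ← mul_pow]; norm_num)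
  refine ⟨s.factorial * ∏ b, ∏ j, ω b j, ?_, ?_, ?_⟩
  · refine Nat.mul_pos (Nat.factorial_pos _) ?_
    exact Finset.prod_pos fun b _ => Finset.prod_pos fun j _ => (hPp _ (hω b j)).1.pos
  · have h1 : s.factorial ≤ s ^ s := Nat.factorial_le_pow s
    have h2 : ∏ b, ∏ j, ω b j ≤ (y ^ (11 * s)) ^ 8 := by
      have := Finset.prod_le_pow_card (Finset.univ : Finset (Fin 4 × Bool))
        (fun b => ∏ j, ω b j) (y ^ (11 * s)) (fun b _ => by
          have := Finset.prod_le_pow_card (Finset.univ : Finset (Fin (11 * s))) (fun j => ω b j) y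
            (fun j _ => (hPp _ (hω b j)).2)
          simpa using this)
      simpa using this
    calc _ ≤ s ^ s * (y ^ (11 * s)) ^ 8 := Nat.mul_le_mul h1 h2
      _ = m ^ (23952 * s) := by
        have e1 : s ^ s = m ^ (16 * s) := by rw [pow_mul, ← hs]
        rw [e1, hy, ← pow_mul, ← pow_mul, ← pow_add]
        congr 1
        ring
  · intro n B hn hB hd
    refine finish s (m ^ 8) (2 ^ s) ω (by omega) (by omega) ?_ ?_ hΦ ?_ n B hn.le hB hd
    · have h1 : m ^ 8 ≤ s := by rw [hs]; exact Nat.pow_le_pow_right (by omega) (by norm_num)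
      exact h1.trans Nat.lt_two_pow_self.le
    · rw [hs, ← pow_mul, ← pow_mul]
      calc 2 * m ^ (8 * 5) ≤ m * m ^ (8 * 5) := Nat.mul_le_mul_right _ hm2
        _ = m ^ 41 := by rw [← pow_succ']
        _ ≤ _ := Nat.pow_le_pow_right (by omega) (by norm_num)
    · intro b j
      refine ⟨(hPp _ (hω b j)).1, ?_⟩
      have := hω b j
      rw [hP, Finset.mem_filter] at this
      have h2 := this.2
      have h3 : 2 ^ 20 ≤ s := hm.trans hms
      nlinarith

lemma main_nat (a b m L : ℕ) (hm : 2 ^ 20 ≤ m) (hb : b < 2 ^ m) (hL : m < 2 ^ L) (hL1 : L ≤ m)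
    (ha : 0 < a) (hab : a < b) : Rep ((a : ℚ) / b) (17 + 2107881 * L) := by
  obtain ⟨Q, hQ, hQle, hF⟩ := pool m hm
  have hm2 : 2 ≤ m := le_trans (by norm_num) hm
  set s := m ^ 16 with hs
  have hms : m ≤ s := by rw [hs]; exact Nat.le_self_pow (by norm_num) _
  have h1 : b * Q ≤ 2 ^ (23953 * L * s) := by
    have a1 : b ≤ m ^ s := by
      calc b ≤ 2 ^ m := hb.le
        _ ≤ m ^ m := Nat.pow_le_pow_left hm2 _
        _ ≤ m ^ s := Nat.pow_le_pow_right (by omega) hms
    calc b * Q ≤ m ^ s * m ^ (23952 * s) := Nat.mul_le_mul a1 hQle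
      _ = m ^ (23953 * s) := by rw [← pow_add]; congr 1; ring
      _ ≤ (2 ^ L) ^ (23953 * s) := Nat.pow_le_pow_left hL.le _
      _ = _ := by rw [← pow_mul]; congr 1; ring
  have := reduction Q s 22 (47906 * L) (15 + 17 * L) a b hQ hF ha hab ?_ ?_
  · exact this.mono (by omega)
  · calc (b * Q) ^ 2 ≤ (2 ^ (23953 * L * s)) ^ 2 := Nat.pow_le_pow_left h1 _
      _ = _ := by rw [← pow_mul]; congr 1; ring
  · refine h1.trans (Nat.pow_le_pow_right (by norm_num) ?_)
    calc 23953 * L * s ≤ 2 ^ 15 * m * m ^ 16 := by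
          rw [hs]; gcongr; norm_num
      _ = 2 ^ 15 * m ^ 17 := by ring
      _ ≤ 2 ^ 15 * (2 ^ L) ^ 17 := by gcongr
      _ = _ := by rw [← pow_mul, ← pow_add, mul_comm L]

end Crest.Agent.H1Egy
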