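import Crest.Agent.H1Egy.Char

set_option autoImplicit false

namespace Crest.Agent.H1Egy

open Finset

/-- subset products. -/
def sub {J : ℕ} (β : Fin J → ℕ) (ε : Fin J → Bool) : ℕ := ∏ j, if ε j then β j else 1

lemma sub_dvd {J : ℕ} (β : Fin J → ℕ) (ε : Fin J → Bool) : sub β ε ∣ ∏ j, β j := by
  unfold sub
  refine Finset.prod_dvd_prod_of_dvd _ _ fun j _ => ?_
  split_ifs
  · exact dvd_rfl
  · exact one_dvd _

lemma card_class (M q r : ℕ) :
    #{v ∈ Finset.range (M + 1) | v ≡ r [MOD q]} ≤ M / q + 1 := by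
  have : #{v ∈ Finset.range (M + 1) | v ≡ r [MOD q]} ≤ (Finset.range (M / q + 1)).card := by
    refine Finset.card_le_card_of_injOn (fun v => v / q) ?_ ?_
    · intro v hv
      simp only [Finset.coe_filter, Finset.mem_range, Set.mem_ofPred_eq] at hv
      simp only [Finset.coe_range, Set.mem_Iio]
      exact Nat.lt_succ_of_le (Nat.div_le_div_right (by omega))
    · intro v hv w hw heq
      simp only [Finset.coe_filter, Finset.mem_range, Set.mem_ofPred_eq] at hv hw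
      have h1 : v % q = w % q := hv.2.trans hw.2.symm
      simp only at heq
      rw [← Nat.div_add_mod v q, ← Nat.div_add_mod w q, heq, h1]
  simpa using this

lemma fiber_count {J : ℕ} (P : Finset ℕ) (y q k : ℕ) (hP : ∀ p ∈ P, p.Prime ∧ p ≤ y)
    (A : Finset (Fin J)) (hA : A.card = k) (ε ε' : Fin J → Bool)
    (hε : ∀ j ∈ A, ε j = true ∧ ε' j = false) :
    #{β ∈ Fintype.piFinset (fun _ : Fin J => P) |
        (∀ j, Nat.Coprime (β j) q) ∧ sub β ε ≡ sub β ε' [MOD q]} ≤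
      ((y ^ k / q + 1) * k ^ k) * P.card ^ (J - k) := by
  classical
  set S := {β ∈ Fintype.piFinset (fun _ : Fin J => P) |
        (∀ j, Nat.Coprime (β j) q) ∧ sub β ε ≡ sub β ε' [MOD q]} with hS
  set t := Fintype.piFinset (fun j : Fin J => if j ∈ A then ({0} : Finset ℕ) else P) with ht
  have htc : t.card = P.card ^ (J - k) := by
    rw [ht, Fintype.card_piFinset]
    have : ∀ j : Fin J, (if j ∈ A then ({0} : Finset ℕ) else P).card =
        if j ∈ Aᶜ then P.card else 1 := by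
      intro j
      by_cases hj : j ∈ A <;> simp [hj]
    simp only [this]
    rw [Finset.prod_ite_mem, Finset.univ_inter, Finset.prod_const, Finset.card_compl, hA]
    simp
  rw [← htc]
  refine Finset.card_le_mul_card_image_of_maps_to
    (f := fun β : Fin J → ℕ => fun j => if j ∈ A then 0 else β j) ?_ _ ?_
  · intro β hβ
    rw [hS, Finset.mem_filter, Fintype.mem_piFinset] at hβ
    rw [ht, Fintype.mem_piFinset]
    intro j
    by_cases hj : j ∈ A
    · simp [hj]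
    · simpa [hj] using hβ.1 j
  intro γ _
  set F := {β ∈ S | (fun j => if j ∈ A then 0 else β j) = γ} with hF
  rcases F.eq_empty_or_nonempty with h0 | ⟨β0, hβ0⟩
  · rw [h0]; simp
  have hmem : ∀ β ∈ F, (∀ j, β j ∈ P) ∧ (∀ j, Nat.Coprime (β j) q) ∧
      sub β ε ≡ sub β ε' [MOD q] ∧ ∀ j, j ∉ A → β j = γ j := by
    intro β hβ
    rw [hF, Finset.mem_filter, hS, Finset.mem_filter, Fintype.mem_piFinset] at hβ
    refine ⟨hβ.1.1, hβ.1.2.1, hβ.1.2.2, fun j hj => ?_⟩
    have := congrFun hβ.2 j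
    simpa [hj] using this
  have e1 : ∀ β ∈ F, sub β ε = (∏ j ∈ A, β j) * ∏ j ∈ Aᶜ, if ε j then γ j else 1 := by
    intro β hβ
    unfold sub
    rw [← Finset.prod_mul_prod_compl A]
    congr 1
    · exact Finset.prod_congr rfl fun j hj => by simp [(hε j hj).1]
    · refine Finset.prod_congr rfl fun j hj => ?_
      rw [(hmem β hβ).2.2.2 j (Finset.mem_compl.1 hj)]
  have e2 : ∀ β ∈ F, sub β ε' = ∏ j ∈ Aᶜ, if ε' j then γ j else 1 := by
    intro β hβ
    unfold sub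
    rw [← Finset.prod_mul_prod_compl A]
    rw [Finset.prod_eq_one (s := A) fun j hj => by simp [(hε j hj).2], one_mul]
    refine Finset.prod_congr rfl fun j hj => ?_
    rw [(hmem β hβ).2.2.2 j (Finset.mem_compl.1 hj)]
  have hu : Nat.Coprime q (∏ j ∈ Aᶜ, if ε j then γ j else 1) := by
    refine Nat.Coprime.prod_right fun j hj => ?_
    split_ifs
    · rw [← (hmem β0 hβ0).2.2.2 j (Finset.mem_compl.1 hj)]
      exact ((hmem β0 hβ0).2.1 j).symm
    · simp
  have hV := card_class (y ^ k) q (∏ j ∈ A, β0 j)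
  refine le_trans (Finset.card_le_mul_card_image_of_maps_to
    (f := fun β : Fin J → ℕ => ∏ j ∈ A, β j)
    (t := {v ∈ Finset.range (y ^ k + 1) | v ≡ ∏ j ∈ A, β0 j [MOD q]}) ?_ (k ^ k) ?_) ?_
  · intro β hβ
    rw [Finset.mem_filter, Finset.mem_range]
    constructor
    · have : ∏ j ∈ A, β j ≤ y ^ A.card :=
        Finset.prod_le_pow_card _ _ _ fun j _ => (hP _ ((hmem β hβ).1 j)).2
      rw [hA] at this
      omega
    · have h1 := (hmem β hβ).2.2.1
      have h2 := (hmem β0 hβ0).2.2.1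
      rw [e1 β hβ, e2 β hβ] at h1
      rw [e1 β0 hβ0, e2 β0 hβ0] at h2
      exact Nat.ModEq.cancel_right_of_coprime hu (h1.trans h2.symm)
  · intro v _
    set G := {β ∈ F | ∏ j ∈ A, β j = v} with hG
    rcases G.eq_empty_or_nonempty with h0 | ⟨β1, hβ1⟩
    · rw [h0]; simp
    rw [hG, Finset.mem_filter] at hβ1
    have hsub : G ⊆ Fintype.piFinset
        (fun j : Fin J => if j ∈ A then A.image β1 else {γ j}) := by
      intro β hβ
      rw [hG, Finset.mem_filter] at hβ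
      rw [Fintype.mem_piFinset]
      intro j
      by_cases hj : j ∈ A
      · rw [if_pos hj]
        have hp := (hP _ ((hmem β hβ.1).1 j)).1
        have hd : β j ∣ ∏ j ∈ A, β1 j := by
          rw [hβ1.2, ← hβ.2]
          exact Finset.dvd_prod_of_mem _ hj
        obtain ⟨i, hi, hdi⟩ := (Prime.dvd_finsetProd_iff hp.prime _).1 hd
        have hp1 := (hP _ ((hmem β1 hβ1.1).1 i)).1
        exact Finset.mem_image.2 ⟨i, hi, ((Nat.prime_dvd_prime_iff_eq hp hp1).1 hdi).symm⟩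
      · rw [if_neg hj, Finset.mem_singleton]
        exact (hmem β hβ.1).2.2.2 j hj
    refine (Finset.card_le_card hsub).trans ?_
    rw [Fintype.card_piFinset]
    have : ∀ j : Fin J, (if j ∈ A then A.image β1 else {γ j}).card =
        if j ∈ A then (A.image β1).card else 1 := by
      intro j
      by_cases hj : j ∈ A <;> simp [hj]
    simp only [this]
    rw [Finset.prod_ite_mem, Finset.univ_inter, Finset.prod_const, hA]
    exact Nat.pow_le_pow_left (hA ▸ Finset.card_image_le) _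
  · rw [mul_comm]
    exact Nat.mul_le_mul_right _ hV

lemma tail_count (J k : ℕ) :
    (#{p : (Fin J → Bool) × (Fin J → Bool) |
        #{j | p.1 j = true ∧ p.2 j = false} < k} : ℝ) ≤ 2 ^ k * (7 / 2) ^ J := by
  classical
  set w : Bool → Bool → ℝ := fun b b' => if b = true ∧ b' = false then 1 / 2 else 1 with hw
  have h1 : ∑ p : (Fin J → Bool) × (Fin J → Bool), ∏ j, w (p.1 j) (p.2 j) = (7 / 2) ^ J := by
    rw [Fintype.sum_prod_type]
    have e : ∀ ε : Fin J → Bool, ∑ ε' : Fin J → Bool, ∏ j, w (ε j) (ε' j) =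
        ∏ j, ∑ b', w (ε j) b' := by
      intro ε
      rw [Finset.prod_univ_sum, Fintype.piFinset_univ]
    simp only [e]
    have := Finset.prod_univ_sum (fun _ : Fin J => (Finset.univ : Finset Bool))
      (fun _ b => ∑ b', w b b')
    rw [Fintype.piFinset_univ] at this
    rw [← this]
    simp [hw]
    norm_num
  rw [← h1, Finset.card_filter, Finset.mul_sum]
  push_cast
  refine Finset.sum_le_sum fun p _ => ?_
  have e : ∏ j, w (p.1 j) (p.2 j) = (1 / 2) ^ #{j | p.1 j = true ∧ p.2 j = false} := by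
    simp only [hw]
    rw [Finset.prod_ite, Finset.prod_const, Finset.prod_const_one, mul_one]
  rw [e]
  split_ifs with h
  · rw [one_div, inv_pow, ← div_eq_mul_inv, le_div_iff₀ (by positivity), one_mul]
    exact pow_le_pow_right₀ (by norm_num) h.le
  · positivity

open Classical in
/-- collision count, zero unless all primes are coprime to the modulus. -/
noncomputable def cc {J : ℕ} (q : ℕ) (β : Fin J → ℕ) : ℝ :=
  if ∀ j, Nat.Coprime (β j) q then (coll q (sub β) : ℝ) else 0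

lemma cc_nonneg {J : ℕ} (q : ℕ) (β : Fin J → ℕ) : 0 ≤ cc q β := by
  unfold cc
  split_ifs <;> positivity

lemma sum_cc {J : ℕ} (P : Finset ℕ) (y q k : ℕ) (hP : ∀ p ∈ P, p.Prime ∧ p ≤ y) :
    ∑ β ∈ Fintype.piFinset (fun _ : Fin J => P), cc q β ≤
      4 ^ J * ((((y ^ k / q + 1) * k ^ k) * P.card ^ (J - k) : ℕ) : ℝ) +
        2 ^ k * (7 / 2) ^ J * P.card ^ J := by
  classical
  have e1 : ∀ β : Fin J → ℕ, cc q β = ∑ p : (Fin J → Bool) × (Fin J → Bool),
      if (∀ j, Nat.Coprime (β j) q) ∧ sub β p.1 ≡ sub β p.2 [MOD q] then (1 : ℝ) else 0 := by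
    intro β
    unfold cc coll
    split_ifs with h
    · rw [Finset.card_filter]
      push_cast
      refine Finset.sum_congr rfl fun p _ => ?_
      by_cases h' : sub β p.1 ≡ sub β p.2 [MOD q]
      · rw [if_pos h', if_pos ⟨h, h'⟩]
      · rw [if_neg h', if_neg fun h'' => h' h''.2]
    · exact (Finset.sum_eq_zero fun p _ => if_neg fun h' => h h'.1).symm
  simp only [e1]
  rw [Finset.sum_comm]
  have e2 : ∀ p : (Fin J → Bool) × (Fin J → Bool),
      ∑ β ∈ Fintype.piFinset (fun _ : Fin J => P),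
        (if (∀ j, Nat.Coprime (β j) q) ∧ sub β p.1 ≡ sub β p.2 [MOD q] then (1 : ℝ) else 0) ≤
      ((((y ^ k / q + 1) * k ^ k) * P.card ^ (J - k) : ℕ) : ℝ) +
        (if #{j | p.1 j = true ∧ p.2 j = false} < k then (1 : ℝ) else 0) * P.card ^ J := by
    intro p
    rw [Finset.sum_boole]
    split_ifs with h
    · have : #{β ∈ Fintype.piFinset (fun _ : Fin J => P) |
          (∀ j, Nat.Coprime (β j) q) ∧ sub β p.1 ≡ sub β p.2 [MOD q]} ≤ P.card ^ J := by
        refine (Finset.card_filter_le _ _).trans ?_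
        simp
      have h2 : (#{β ∈ Fintype.piFinset (fun _ : Fin J => P) |
          (∀ j, Nat.Coprime (β j) q) ∧ sub β p.1 ≡ sub β p.2 [MOD q]} : ℝ) ≤ P.card ^ J := by
        exact_mod_cast this
      have h3 : (0 : ℝ) ≤ ((((y ^ k / q + 1) * k ^ k) * P.card ^ (J - k) : ℕ) : ℝ) := by
        positivity
      linarith
    · obtain ⟨A, hA, hAc⟩ := Finset.exists_subset_card_eq (not_lt.1 h)
      have := fiber_count P y q k hP A hAc p.1 p.2 (fun j hj => by simpa using hA hj)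
      rw [zero_mul, add_zero]
      exact_mod_cast this
  refine (Finset.sum_le_sum fun p _ => e2 p).trans ?_
  rw [Finset.sum_add_distrib, ← Finset.sum_mul, Finset.sum_boole, Finset.sum_const,
    Finset.card_univ, nsmul_eq_mul]
  have h4 : (Fintype.card ((Fin J → Bool) × (Fin J → Bool)) : ℝ) = 4 ^ J := by
    simp [← mul_pow]
  rw [h4]
  have := tail_count J k
  gcongr

/-- averaged collision bound. -/
lemma sum_cc' {J : ℕ} (P : Finset ℕ) (y q k m : ℕ) (hP : ∀ p ∈ P, p.Prime ∧ p ≤ y)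
    (hq : 0 < q) (hqk : q ≤ y ^ k) (hy : y ≤ m * P.card) (hkJ : k ≤ J) (hmk : 1 ≤ (m * k) ^ k)
    (htail : (q : ℝ) * (2 ^ k * (7 / 8) ^ J) ≤ 1) :
    ∑ β ∈ Fintype.piFinset (fun _ : Fin J => P), cc q β / 4 ^ J ≤
      3 * ((m * k) ^ k : ℕ) / q * P.card ^ J := by
  rw [← Finset.sum_div, div_le_iff₀ (by positivity)]
  refine (sum_cc P y q k hP).trans ?_
  have hq' : (0 : ℝ) < q := by exact_mod_cast hq
  have h1 : q * (((y ^ k / q + 1) * k ^ k) * P.card ^ (J - k)) ≤ 2 * (m * k) ^ k * P.card ^ J := by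
    have a1 : q * (y ^ k / q + 1) ≤ 2 * y ^ k := by
      have := Nat.mul_div_le (y ^ k) q
      rw [mul_add]; omega
    have a2 : y ^ k ≤ (m * P.card) ^ k := Nat.pow_le_pow_left hy _
    have a3 : P.card ^ J = P.card ^ k * P.card ^ (J - k) := by
      rw [← pow_add]; congr 1; omega
    calc q * (((y ^ k / q + 1) * k ^ k) * P.card ^ (J - k))
        = (q * (y ^ k / q + 1)) * (k ^ k * P.card ^ (J - k)) := by ring
      _ ≤ (2 * (m * P.card) ^ k) * (k ^ k * P.card ^ (J - k)) :=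
          Nat.mul_le_mul_right _ (by omega)
      _ = _ := by rw [a3, mul_pow, mul_pow]; ring
  have h1' : ((((y ^ k / q + 1) * k ^ k) * P.card ^ (J - k) : ℕ) : ℝ) ≤
      2 * ((m * k) ^ k : ℕ) / q * P.card ^ J := by
    rw [div_mul_eq_mul_div, le_div_iff₀ hq', mul_comm]
    exact_mod_cast h1
  have h2 : (2 : ℝ) ^ k * (7 / 2) ^ J ≤ ((m * k) ^ k : ℕ) / q * 4 ^ J := by
    have a1 : (7 / 2 : ℝ) ^ J = (7 / 8) ^ J * 4 ^ J := by
      rw [← mul_pow]; norm_num
    have a2 : (1 : ℝ) ≤ ((m * k) ^ k : ℕ) := by exact_mod_cast hmk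
    rw [a1, ← mul_assoc]
    gcongr
    rw [le_div_iff₀ hq']
    linarith
  calc _ ≤ 4 ^ J * (2 * ((m * k) ^ k : ℕ) / q * P.card ^ J) +
        ((m * k) ^ k : ℕ) / q * 4 ^ J * (P.card : ℝ) ^ J := by gcongr
    _ = _ := by ring

/-- the potential of a pool. -/
noncomputable def Phi {J : ℕ} (Q0 N0 : ℕ) (ω : Fin 4 × Bool → Fin J → ℕ) : ℝ :=
  ∑ q ∈ Finset.Ioc Q0 N0, (q : ℝ) * (q ^ 4 * ∏ b, cc q (ω b) / 4 ^ J)

lemma exists_pool {J : ℕ} (P : Finset ℕ) (hne : P.Nonempty) (Q0 N0 : ℕ) (hQ0 : 2 * 3 ^ 8 < Q0)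
    (h : ∀ q ∈ Finset.Ioc Q0 N0, ∃ g : ℕ, g ^ 8 ≤ q ∧
      ∑ β ∈ Fintype.piFinset (fun _ : Fin J => P), cc q β / 4 ^ J ≤ 3 * g / q * P.card ^ J) :
    ∃ ω : Fin 4 × Bool → Fin J → ℕ, (∀ b j, ω b j ∈ P) ∧ Phi Q0 N0 ω < 1 / 2 := by
  classical
  set Ω := Fintype.piFinset (fun _ : Fin 4 × Bool => Fintype.piFinset (fun _ : Fin J => P))
    with hΩ
  have hc : (Ω.card : ℝ) = ((P.card : ℝ) ^ J) ^ 8 := by
    rw [hΩ, Fintype.card_piFinset]
    simp
  have hPpos : (0 : ℝ) < P.card := by exact_mod_cast hne.card_pos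
  have hsum : ∑ ω ∈ Ω, Phi Q0 N0 ω < ∑ ω ∈ Ω, (1 / 2 : ℝ) := by
    rw [Finset.sum_const, nsmul_eq_mul, hc]
    unfold Phi
    rw [Finset.sum_comm]
    have hq : ∀ q ∈ Finset.Ioc Q0 N0,
        ∑ ω ∈ Ω, (q : ℝ) * (q ^ 4 * ∏ b, cc q (ω b) / 4 ^ J) ≤
          ((P.card : ℝ) ^ J) ^ 8 * 3 ^ 8 * ((q : ℝ) ^ 2)⁻¹ := by
      intro q hq
      obtain ⟨g, hg, hle⟩ := h q hq
      have hq0 : (0 : ℝ) < q := by
        have := (Finset.mem_Ioc.1 hq).1
        exact_mod_cast (by omega : 0 < q)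
      rw [← Finset.mul_sum, ← Finset.mul_sum, hΩ,
        ← Finset.prod_univ_sum (fun _ : Fin 4 × Bool => Fintype.piFinset (fun _ : Fin J => P))
          (fun _ β => cc q β / 4 ^ J)]
      rw [Finset.prod_const, Finset.card_univ]
      have h8 : Fintype.card (Fin 4 × Bool) = 8 := by simp
      rw [h8]
      have hnn : 0 ≤ ∑ β ∈ Fintype.piFinset (fun _ : Fin J => P), cc q β / 4 ^ J :=
        Finset.sum_nonneg fun β _ => div_nonneg (cc_nonneg _ _) (by positivity)
      have hg' : (g : ℝ) ^ 8 ≤ q := by exact_mod_cast hg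
      calc (q : ℝ) * (q ^ 4 * (∑ β ∈ Fintype.piFinset (fun _ : Fin J => P), cc q β / 4 ^ J) ^ 8)
          ≤ q * (q ^ 4 * (3 * g / q * P.card ^ J) ^ 8) := by gcongr
        _ = ((P.card : ℝ) ^ J) ^ 8 * 3 ^ 8 * (g ^ 8 / q ^ 3) := by field_simp
        _ ≤ ((P.card : ℝ) ^ J) ^ 8 * 3 ^ 8 * (q / q ^ 3) := by gcongr
        _ = _ := by field_simp
    refine lt_of_le_of_lt (Finset.sum_le_sum hq) ?_
    rw [← Finset.mul_sum, mul_assoc]
    have hQ0' : (2 * 3 ^ 8 : ℝ) < Q0 := by exact_mod_cast hQ0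
    have h2 : ∑ q ∈ Finset.Ioc Q0 N0, ((q : ℝ) ^ 2)⁻¹ ≤ (Q0 : ℝ)⁻¹ := by
      by_cases hN : Q0 ≤ N0
      · have := sum_Ioc_inv_sq_le_sub (α := ℝ) (k := Q0) (n := N0) (by omega) hN
        have h3 : (0 : ℝ) ≤ (N0 : ℝ)⁻¹ := by positivity
        linarith
      · rw [Finset.Ioc_eq_empty (by omega)]
        simp
    have h3 : (3 : ℝ) ^ 8 * (Q0 : ℝ)⁻¹ < 1 / 2 := by
      rw [← div_eq_mul_inv, div_lt_iff₀ (by linarith)]
      linarith
    have h4 : (3 : ℝ) ^ 8 * ∑ q ∈ Finset.Ioc Q0 N0, ((q : ℝ) ^ 2)⁻¹ < 1 / 2 :=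
      lt_of_le_of_lt (by gcongr) h3
    exact mul_lt_mul_of_pos_left h4 (by positivity)
  obtain ⟨ω, hω, hlt⟩ := Finset.exists_lt_of_sum_lt hsum
  refine ⟨ω, fun b j => ?_, hlt⟩
  rw [hΩ, Fintype.mem_piFinset] at hω
  exact Fintype.mem_piFinset.1 (hω b) j

end Crest.Agent.H1Egy
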